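import Vale.Agent.P352Z.R.PW.B
import Vale.Agent.P352Z.R.GEN
import Vale.Agent.P352Z.R.FAR
import Vale.Agent.P352Z.Api1C

/-!
# P352Z, row PW, part A: algebra of the smeared fields, charges, decay under the scaling
-/

set_option linter.all false

open MeasureTheory Filter Topology Set
open scoped SchwartzMap ComplexConjugate ENNReal ContDiff

namespace Vale.Agent.P352X.ZZ

open Vale.Agent.P352 Vale.Agent.P352.GF Vale.Agent.P352.BW Vale.Agent.P352.H246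
open Vale.Agent.P352.H496 Vale.Agent.P352.H755 Vale.Agent.P352.H15
open UniformSpace (Completion)
open Complex (I)

noncomputable section

namespace Pw

export Vale.Agent.P352X.Pw (scp_a scp_b scp_e Sm Sm.lim
  Sm.add Sm.of_sqrt XM tst_x tst_t hX_M hX_M' TT_hk sim_const sim_M)
open Ev

variable {D : Type*} [NormedAddCommGroup D] [InnerProductSpace ℂ D] (c : Ctx D)

/-- locality -/
lemma comm {F : Ix → Ix → Fn} (hF : TT F) {f : Fn} (hf : GF.IsTest f)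
    (h : ∀ m n, Sep (F m n) f) (v : D) : c.Tf F (c.Thf f v) = c.Thf f (c.Tf F v) :=
  Tf_comm c hF (tt_ad va hf) (fun m n k l => sep_mono (h m n) subset_rfl (tsupport_ad _ _ _ _)) v

/-- the three point function of the row -/
def Ph (f1 f3 : Fn) (F : Ix → Ix → Fn) : ℂ :=
  inner ℂ (c.Th (bar f1)) ((c.Tf F (c.Thf f3 c.Q.vac) : D) : Completion D)

lemma Ph_eq (f1 f3 : Fn) (F : Ix → Ix → Fn) :
    Ph c f1 f3 F = inner ℂ (c.Thf (bar f1) c.Q.vac) (c.Tf F (c.Thf f3 c.Q.vac)) :=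
  Completion.inner_coe _ _

lemma Ph_lin (f1 f3 : Fn) {F G : Ix → Ix → Fn} (hF : TT F) (hG : TT G) (a : ℂ) :
    Ph c f1 f3 (fun m n x => F m n x + a * G m n x) = Ph c f1 f3 F + a * Ph c f1 f3 G := by
  simp only [Ph_eq, Tf_lin c hF hG, inner_add_right, inner_smul_right]

/-- real tensor functions that are spacelike to the first leg -/
lemma Ph_sep {f1 f3 : Fn} (h1 : GF.IsTest f1) {F : Ix → Ix → Fn} (hF : TT F)
    (hr : ∀ m n, bar (F m n) = F m n) (h : ∀ m n, Sep (F m n) (bar f1)) :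
    Ph c f1 f3 F = inner ℂ (c.Tv F) ((c.Thf f1 (c.Thf f3 c.Q.vac) : D) : Completion D) := by
  have a := Tf_adj c hF
  rw [show barF F = F from funext fun m => funext fun n => hr m n] at a
  rw [Ph_eq, ← a, comm c hF (Ap.test_bar h1) h, Thf_adj c (Ap.test_bar h1), Ap.bar_bar, Ctx.Tv,
    Completion.inner_coe]

variable {c}

lemma gn_dom {W X} (K : Gen.Fl c W X) (g : GRP c) (v : D) :
    Gn W (v : Completion D) (c.A X v : D) := by
  have := K.dom g v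
  rwa [Completion.coe_smul] at this

lemma A_vac {W X} (K : Gen.Fl c W X) (g : GRP c) : c.A X c.Q.vac = 0 := by
  have h := gn_dom K g c.Q.vac
  obtain ⟨L, a, w, b, -, hW, -⟩ := K
  have h0 : Gn W (c.Q.vac : Completion D) 0 := gn_of_fix fun t => by
    rw [hW]
    exact g.vac _ _ _
  exact Completion.coe_injective D ((h.unique h0).trans (Completion.coe_zero).symm)

/-- the Ward identity for the leg -/
theorem ward {Z} {W X} (hc : CHZ c X Z) (g : GRP c) (K : Gen.Fl c W X) {χ Ξ : V → ℝ}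
    {f1 f3 : Fn} (h3 : GF.IsTest f3) (h3' : HasCompactSupport f3) (h : Chg (tsupport f3) χ Ξ)
    (hF : TT (dZ χ Ξ Z)) : Ph c f1 f3 (dZ χ Ξ Z) =
      inner ℂ ((c.Thf (bar f3) (c.Thf (bar f1) c.Q.vac) : D) : Completion D) (c.Tv (dZ χ Ξ Z)) +
        inner ℂ (c.Th (bar f1)) (gen W (c.Th f3)) := by
  have e := fun m n => hc _ χ Ξ (c.T m n) (pd n f3) c.Q.vac (c.Thf (bar f1) c.Q.vac) h3' h
    (fld c m n) (Ap.test_pd n h3) (Ap.tsupport_pd n f3)
  simp only [A_vac K g, adj_zero (T_adj c _ _ (Ap.test_pd _ h3)), sub_zero, inner_sub_right,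
    sub_eq_iff_eq_add'] at e
  have k : Gn W (c.Th f3) (∑ m, ∑ n, ((eta m * va m : ℝ) : ℂ) •
      ((c.A X (c.T m n (pd n f3) c.Q.vac) : D) : Completion D)) :=
    (Gn.sum _ fun m _ => Gn.sum _ fun n _ => (gn_dom K g _).smul _).cast (Th_eq c h3) rfl
  rw [k.gen_eq, Ph_eq, Ctx.Tv, Completion.inner_coe, (Thf_adj c h3).symm]
  rw [Thf_eq c h3, adj_sum' (Tf_adj c hF)]
  simp only [Thf_eq c h3, adj_sum (Tf_adj c hF), inner_sum, inner_smul_right, e,
    Ctx.Th, Completion.inner_coe, mul_add, Finset.sum_add_distrib]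

/-! ### decay under the scaling -/

lemma Tv_hk_smul (a b : ℝ) (h k : V) {f : Fn} (hf : GF.IsTest f) :
    c.Tv (hk (a • h) (b • k) f) = ((a * b : ℝ) : ℂ) • c.Tv (hk h k f) := by
  rw [Far.Tv_hk c _ _ hf, Far.Tv_hk c _ _ hf, Finset.smul_sum]
  refine Finset.sum_congr rfl fun m _ => ?_
  rw [Finset.smul_sum]
  refine Finset.sum_congr rfl fun n _ => ?_
  rw [smul_smul, ← Complex.ofReal_mul]
  congr 2
  simp only [Pi.smul_apply, smul_eq_mul]
  ring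

variable [Fact c.can]

theorem nrm_kL (hg : GRP c) {g : P3 → ℝ} {ρ : ℝ → ℝ} (h1 : Tst g) (h2 : Tst ρ) {L a b : ℝ}
    (hL : 0 < L) {h k : V} (ha : scp L 1 h = a • h) (hb : scp L 1 k = b • k) :
    |a * b| * ‖c.Tv (hk h k (pr (kL g L) ρ))‖ = L * ‖c.Tv (hk h k (pr g ρ))‖ := by
  obtain ⟨hΛ, hs⟩ := hg.lsc L 1 hL one_pos
  have hq : 0 < Real.sqrt (L * 1) := Real.sqrt_pos.2 (by positivity)
  have hq' : 0 < Real.sqrt L := Real.sqrt_pos.2 hL
  have ht := Ap.test_pr (Ap.tst_kL h1 hL) h2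
  set Λ := bst va vb (Real.sqrt (L / 1) - 1) (Real.sqrt (1 / L) - 1)
  have e1 : (fun x => pr (kL g L) ρ (sim (Real.sqrt (L * 1)) Λ 0 x)) = pr g ρ := by
    funext x
    rw [hs]
    simp only [pr, kL, pl_1, pl_2, al_scp, be_scp, tx_scp, mul_one, one_mul, smul_smul]
    rw [inv_mul_cancel₀ hq'.ne', one_smul, mul_div_cancel_left₀ _ hL.ne']
    rfl
  have e2 : ∀ {h : V} {a : ℝ}, scp L 1 h = a • h → sim 1 Λ 0 h = ((Real.sqrt L)⁻¹ * a) • h := by
    intro h a e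
    rw [← hs, sim_smul, mul_one] at e
    rw [mul_smul, ← e, smul_smul, inv_mul_cancel₀ hq'.ne', one_smul]
  have := hg.ten _ Λ 0 h k _ c.Q.vac hq hΛ ht
  rw [e1, e2 ha, e2 hb, c.Q.U_vac _ _ _ hq hΛ] at this
  have e3 := hg.ug_norm (Real.sqrt (L * 1)) Λ 0 (c.Tv (hk h k (pr g ρ)))
  rw [Ctx.Tv, hg.coe _ _ _ _ hq hΛ, this] at e3
  change ‖c.Tv _‖ = ‖c.Tv _‖ at e3
  rw [← e3, Tv_hk_smul _ _ _ _ ht, norm_smul, Complex.norm_real, Real.norm_eq_abs, ← mul_assoc]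
  congr 1
  have e4 : (Real.sqrt L)⁻¹ * a * ((Real.sqrt L)⁻¹ * b) = L⁻¹ * (a * b) := by
    rw [mul_mul_mul_comm, ← mul_inv, Real.mul_self_sqrt hL.le]
  rw [e4, abs_mul L⁻¹, abs_of_pos (inv_pos.2 hL), mul_inv_cancel_left₀ hL.ne']

section dec

variable (hg : GRP c) {g : P3 → ℝ} {ρ : ℝ → ℝ} (h1 : Tst g) (h2 : Tst ρ) (i : Fin 2)
include hg h1 h2

lemma sm_aa : Sm fun L => Real.sqrt L * ‖c.Tv (hk va va (pr (kL g L) ρ))‖ :=
  ⟨‖c.Tv (hk va va (pr g ρ))‖, fun L hL => by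
    have p := one_pos.trans_le hL
    have := nrm_kL hg h1 h2 p (scp_a L) (scp_a L)
    rw [abs_of_pos (mul_pos p p), mul_assoc] at this
    rw [← mul_assoc, Real.mul_self_sqrt p.le, mul_left_cancel₀ p.ne' this]⟩

lemma sm_ae : Sm fun L => ‖c.Tv (hk va (ex i) (pr (kL g L) ρ))‖ :=
  ⟨‖c.Tv (hk va (ex i) (pr g ρ))‖, fun L hL => by
    have p := one_pos.trans_le hL
    have := nrm_kL hg h1 h2 p (scp_a L) (scp_e L i)
    rw [abs_of_pos (mul_pos p (Real.sqrt_pos.2 p)), mul_assoc] at this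
    rw [mul_left_cancel₀ p.ne' this]⟩

lemma sm_ba : Sm fun L => L⁻¹ * (Real.sqrt L * ‖c.Tv (hk vb va (pr (kL g L) ρ))‖) :=
  ⟨‖c.Tv (hk vb va (pr g ρ))‖, fun L hL => by
    have p := one_pos.trans_le hL
    have := nrm_kL hg h1 h2 p (scp_b L) (scp_a L)
    rw [one_mul, abs_of_pos p] at this
    rw [mul_left_comm, ← mul_assoc (Real.sqrt L), Real.mul_self_sqrt p.le,
      inv_mul_cancel_left₀ p.ne', mul_left_cancel₀ p.ne' this]⟩

lemma sm_be : Sm fun L => L⁻¹ * ‖c.Tv (hk vb (ex i) (pr (kL g L) ρ))‖ :=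
  ⟨‖c.Tv (hk vb (ex i) (pr g ρ))‖, fun L hL => by
    have p := one_pos.trans_le hL
    have := nrm_kL hg h1 h2 p (scp_b L) (scp_e L i)
    rw [one_mul, abs_of_pos (Real.sqrt_pos.2 p)] at this
    rw [mul_left_comm, this, inv_mul_cancel_left₀ p.ne']⟩

lemma sm_ee (j : Fin 2) :
    Sm fun L => L⁻¹ * (Real.sqrt L * ‖c.Tv (hk (ex i) (ex j) (pr (kL g L) ρ))‖) :=
  ⟨‖c.Tv (hk (ex i) (ex j) (pr g ρ))‖, fun L hL => by
    have p := one_pos.trans_le hL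
    have := nrm_kL hg h1 h2 p (scp_e L i) (scp_e L j)
    rw [Real.mul_self_sqrt p.le, abs_of_pos p] at this
    rw [mul_left_comm, ← mul_assoc (Real.sqrt L), Real.mul_self_sqrt p.le,
      inv_mul_cancel_left₀ p.ne', mul_left_cancel₀ p.ne' this]⟩

end dec

/-- decay of the plane and face densities of the vector field `X` -/
def Dec (c : Ctx D) (Z : Ix → Ix → Ix → V → ℝ) : Prop := ∀ g ρ, Tst g → Tst ρ →
  (Sm fun L => ‖c.Tv (hZ va Z (pr (kL g L) ρ))‖) ∧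
    Sm fun L => L⁻¹ * ‖c.Tv (hZ vb Z (pr (kL g L) ρ))‖

theorem dec_a (hg : GRP c) : Dec c (ZP va) := fun g ρ h1 h2 => by
  simp only [hZ_P]
  exact ⟨by simpa only [one_mul] using Sm.of_sqrt (r := fun _ => 1) (by
      simpa only [one_mul] using! sm_aa hg h1 h2) fun L _ => by positivity,
    (sm_ba hg h1 h2).of_sqrt fun L hL => by positivity⟩

theorem dec_e (hg : GRP c) (i : Fin 2) : Dec c (ZP (ex i)) := fun g ρ h1 h2 => by
  simp only [hZ_P]
  exact ⟨sm_ae hg h1 h2 i, sm_be hg h1 h2 i⟩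

lemma nrm_M (h : V) (i : Fin 2) {g : P3 → ℝ} {ρ : ℝ → ℝ} (h1 : Tst g) (h2 : Tst ρ) {L : ℝ}
    (hL : 0 < L) : ‖c.Tv (hX h (XM i) (pr (kL g L) ρ))‖ ≤
      ‖c.Tv (hk h (ex i) (pr (kL g L) fun t => t * ρ t))‖ +
        Real.sqrt L * ‖c.Tv (hk h va (pr (kL (fun y => y.2 i * g y) L) ρ))‖ := by
  rw [hX_M' h i g ρ hL, Tv_lin c (TT_hk _ _ (Ap.tst_kL h1 hL) (tst_t h2))
    (TT_hk _ _ (Ap.tst_kL (tst_x h1 i) hL) h2)]
  refine (norm_add_le _ _).trans_eq ?_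
  rw [norm_smul, Complex.norm_real, Real.norm_of_nonneg (Real.sqrt_nonneg L)]

lemma nrm_x (h k : V) (j : Fin 2) {g : P3 → ℝ} {ρ : ℝ → ℝ} (h1 : Tst g) (h2 : Tst ρ) {L : ℝ}
    (hL : 0 < L) : ‖c.Tv (hk h k fun z => (tx z j : ℝ) * pr (kL g L) ρ z)‖ =
      Real.sqrt L * ‖c.Tv (hk h k (pr (kL (fun y => y.2 j * g y) L) ρ))‖ := by
  have p : (Real.sqrt L : ℂ) ≠ 0 := Complex.ofReal_ne_zero.2 (Real.sqrt_pos.2 hL).ne'
  have := Tv_hk_smul (c := c) (Real.sqrt L) 1 h k (Ap.test_pr (Ap.tst_kL (tst_x h1 j) hL) h2)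
  rw [mul_one] at this
  rw [← Real.norm_of_nonneg (Real.sqrt_nonneg L), ← Complex.norm_real, ← norm_smul, ← this]
  congr 2
  funext m n x
  simp only [hk, pr, kL, pl_2, Pi.smul_apply, smul_eq_mul]
  push_cast
  field_simp

theorem dec_M (hg : GRP c) (i : Fin 2) : Dec c (ZM i) := fun g ρ h1 h2 => by
  simp only [hZ_Ma]
  refine ⟨(sm_ae hg h1 (tst_t h2) i).add (sm_aa hg (tst_x h1 i) h2) fun L hL =>
      nrm_M _ i h1 h2 (one_pos.trans_le hL), ?_⟩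
  have s := fun j => (sm_ee hg (tst_x h1 j) h2 i j).add (sm_ee hg (tst_x h1 j) h2 j i)
    fun _ _ => le_rfl
  refine ((sm_be hg h1 (tst_t h2) i).add (sm_ba hg (tst_x h1 i) h2) fun _ _ => le_rfl).add
    ((s 0).add (s 1) fun _ _ => le_rfl) fun L hL => ?_
  have p := one_pos.trans_le hL
  have t := Ap.in_univ (Ap.dc_pr (Ap.tst_kL h1 p) h2)
  have u := fun h k j => tt_hk h k (Ap.test_tx j t.1)
  have w := fun j => (u (ex i) (ex j) j).lin (u (ex j) (ex i) j) (-1)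
  have e := Tv_lin c (w 0) (w 1) 1
  simp only [one_mul, one_smul, Tv_lin c (u _ _ _) (u _ _ _)] at e
  simp only [hZ_Mb, Fin.sum_univ_two, ← mul_add]
  rw [Tv_lin c (fun m n => (Ap.in_hX vb (by fun_prop) t m n).1) (by
    simpa only [one_mul] using (w 0).lin (w 1) 1), e]
  refine mul_le_mul_of_nonneg_left ((norm_add_le_of_le (nrm_M _ i h1 h2 p) le_rfl).trans ?_)
    (by positivity)
  simp only [neg_one_smul, norm_neg, mul_add, ← nrm_x _ _ _ h1 h2 p, ← sub_eq_add_neg]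
  gcongr
  exact norm_add_le_of_le (norm_sub_le _ _) (norm_sub_le _ _)

end Pw

end

end Vale.Agent.P352X.ZZ
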