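import Vale.Agent.P352X.R.PW.A
import Vale.Agent.P352Z.R.CH
import Vale.Agent.P352Z.R.Ev

/-!
# P352Z, row PW, part B: the charges of the improved tensor
-/

set_option linter.all false

open MeasureTheory Filter Topology Set
open scoped SchwartzMap ComplexConjugate ENNReal ContDiff

namespace Vale.Agent.P352X.ZZ

open Vale.Agent.P352 Vale.Agent.P352.GF Vale.Agent.P352.BW Vale.Agent.P352.H246
open Vale.Agent.P352.H496 Vale.Agent.P352.H755 Vale.Agent.P352.H15
open UniformSpace (Completion)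
open Complex (I)

noncomputable section

namespace Pw

open Ev

/-- the test functions of the current in `T - S` -/
def vF (F : Ix → Ix → Fn) (m : Ix) : Fn := fun x =>
  ∑ j, (eta j : ℂ) * pd m (F j j) x + -1 * ∑ n, (eta n : ℂ) * pd n (F m n) x

lemma test_vF {F : Ix → Ix → Fn} (hF : TT F) (m : Ix) : GF.IsTest (vF F m) :=
  Ap.sw_lin _ (Ap.sw_sum fun j _ => Ap.sw_cmul _ (Ap.test_pd _ (hF _ _)))
    (Ap.sw_sum fun j _ => Ap.sw_cmul _ (Ap.test_pd _ (hF _ _)))

/-- the density `χ ∂_k Ξ Z^k_mn` -/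
def dZ (χ Ξ : V → ℝ) (Z : Ix → Ix → Ix → V → ℝ) : Ix → Ix → Fn := fun m n x =>
  ((χ x * ∑ k, dr k Ξ x * Z k m n x : ℝ) : ℂ)

/-- the plane density `h_k Z^k_mn g` -/
def hZ (h : V) (Z : Ix → Ix → Ix → V → ℝ) (g : Fn) : Ix → Ix → Fn := fun m n x =>
  ((∑ k, eta k * h k * Z k m n x : ℝ) : ℂ) * g x

/-- `Z^k_mn = δ^k_m X_n + Y^k_mn`, where `Y` is a three form with `∂^n Y^k_mn = ∂_m X^k` -/
structure Imp (X : V → V) (Z : Ix → Ix → Ix → V → ℝ) : Prop where
  sm : ∀ k m n, ContDiff ℝ ∞ (Z k m n)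
  div : ∀ k m x, ∑ j, eta j * dr m (Z k j j) x = ∑ n, eta n * dr n (Z k m n) x
  alt : ∀ H : Ix → Ix → ℝ, (∀ r k, H r k = H k r) → ∀ m x,
    ∑ j, eta j * ∑ k, H m k * Z k j j x = ∑ n, eta n * ∑ k, H n k * Z k m n x
  sym : ∀ (u : Ix → ℝ) m n x, ∑ k, u k * Z k m n x + ∑ k, u k * Z k n m x =
    u m * (eta n * X x n) + u n * (eta m * X x m)

lemma dr_comm {u : V → ℝ} (hu : ContDiff ℝ ∞ u) (m n : Ix) (x : V) :
    dr m (dr n u) x = dr n (dr m u) x := by
  have d := hu.differentiable (by simp)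
  have e : ∀ m n, ((dr m (dr n u) x : ℝ) : ℂ) =
      dv (bas m 1) (dv (bas n 1) fun x => (u x : ℂ)) x := fun m n => by
    rw [Ap.dv_bas, Ap.dv_bas, funext fun y => Ap.pd_cx (d y) n,
      Ap.pd_cx ((Ap.smooth_dr hu n).differentiable (by simp) x)]
  exact Complex.ofReal_injective (by rw [e, e, Ap.dv_comm (Ap.smooth_cx hu)])

lemma dr_sum {u : Ix → V → ℝ} (hu : ∀ k, Differentiable ℝ (u k)) (m : Ix) (x : V) :
    dr m (fun x => ∑ k, u k x) x = ∑ k, dr m (u k) x := by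
  rw [Ap.dr_eq (Differentiable.fun_sum (fun k _ => hu k) x), fderiv_fun_sum fun k _ => hu k x]
  simp only [ContinuousLinearMap.sum_apply, Ap.dr_eq (hu _ x)]

variable {X : V → V} {Z : Ix → Ix → Ix → V → ℝ} {χ Ξ : V → ℝ}

lemma tst_dZ (hZ : Imp X Z) (hχ : Tst χ) (hΞ : ContDiff ℝ ∞ Ξ) (m n : Ix) :
    Tst fun x => χ x * ∑ k, dr k Ξ x * Z k m n x :=
  Ap.cs_mul_r hχ (ContDiff.sum fun k _ => (Ap.smooth_dr hΞ k).mul (hZ.sm k m n))

lemma tt_dZ (hZ : Imp X Z) (hχ : Tst χ) (hΞ : ContDiff ℝ ∞ Ξ) : TT (dZ χ Ξ Z) :=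
  fun m n => Ap.tst_sw (tst_dZ hZ hχ hΞ m n)

lemma vF_dZ (hZ : Imp X Z) {K : Set V} (h : Chg K χ Ξ) (m : Ix) {z : V} (hz : z ∈ Jc K) :
    ∀ᶠ x in 𝓝 z, vF (dZ χ Ξ Z) m x = 0 := by
  obtain ⟨hχ, hΞ, -, hl⟩ := h
  have d1 := fun k => (Ap.smooth_dr hΞ k).differentiable (by simp)
  have d2 := fun k m n => (hZ.sm k m n).differentiable (by simp)
  have e : ∀ r m n x, pd r (dZ χ Ξ Z m n) x =
      (dr r (fun x => χ x * ∑ k, dr k Ξ x * Z k m n x) x : ℝ) := fun r m n x =>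
    Ap.pd_cx ((tst_dZ hZ hχ hΞ m n).1.differentiable (by simp) x) r
  rcases hl z hz with k | k
  · have k1 : ∀ r m n, ∀ᶠ x in 𝓝 z, dr r (fun x => χ x * ∑ k, dr k Ξ x * Z k m n x) x =
        ∑ k, dr r (dr k Ξ) x * Z k m n x + ∑ k, dr k Ξ x * dr r (Z k m n) x := fun r m n => by
      filter_upwards [Chx.dr_congr (f := fun x => χ x * ∑ k, dr k Ξ x * Z k m n x)
        (g := fun x => ∑ k, dr k Ξ x * Z k m n x) (k.mono fun x hx => by rw [hx, one_mul]) r] with x hx
      rw [hx, dr_sum fun k => (d1 k).fun_mul (d2 k m n), ← Finset.sum_add_distrib]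
      exact Finset.sum_congr rfl fun k _ => Chx.dr_mul (d1 k) (d2 k m n) r x
    filter_upwards [eventually_all.2 fun r => eventually_all.2 fun m => eventually_all.2 fun n =>
      k1 r m n] with x hx
    have a := hZ.alt (fun r k => dr r (dr k Ξ) x) (fun r k => dr_comm hΞ r k x) m x
    have b : ∑ j, eta j * ∑ k, dr k Ξ x * dr m (Z k j j) x =
        ∑ n, eta n * ∑ k, dr k Ξ x * dr n (Z k m n) x := by
      simp only [Finset.mul_sum, mul_left_comm (eta _)]
      rw [Finset.sum_comm, Finset.sum_comm (γ := Ix) (f := fun n k => dr k Ξ x * (eta n * _))]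
      simp only [← Finset.mul_sum, hZ.div]
    simp only [vF, e, hx, mul_add, Finset.sum_add_distrib, ← Complex.ofReal_mul,
      ← Complex.ofReal_sum, a, b]
    ring
  · have k1 : ∀ r m n, ∀ᶠ x in 𝓝 z, dr r (fun x => χ x * ∑ k, dr k Ξ x * Z k m n x) x = 0 :=
      fun r m n => by
        filter_upwards [Chx.dr_congr (f := fun x => χ x * ∑ k, dr k Ξ x * Z k m n x)
          (g := fun _ => 0) ((eventually_all.2 fun j =>
          Chx.dr_congr k j).mono fun x hx => by simp [hx, Chx.dr_const]) r] with x hx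
        rw [hx, Chx.dr_const]
    filter_upwards [eventually_all.2 fun r => eventually_all.2 fun m => eventually_all.2 fun n =>
      k1 r m n] with x hx
    simp [vF, e, hx]

variable {D : Type*} [NormedAddCommGroup D] [InnerProductSpace ℂ D] (c : Ctx D)

/-- `T = S + (∂ V - η ∂.V) / 3` on tensor test functions -/
lemma rel [Fact c.can] {F : Ix → Ix → Fn} (hF : TT F) (v : D) : c.Tf F v =
    (c.toS 0).Tf F v + (1 / 3 : ℂ) • ∑ m, c.Vl 0 m (vF F m) v := by
  have b := fun m => c.Q.bose_fld _ ((c.hC.fam.p1l 0).bose m)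
  have e : ∀ m, c.Vl 0 m (vF F m) v = ∑ j, (eta j : ℂ) • c.Vl 0 m (pd m (F j j)) v -
      ∑ n, (eta n : ℂ) • c.Vl 0 m (pd n (F m n)) v := fun m => by
    have t := fun r m n => Ap.test_pd r (hF m n)
    rw [← Grp.fld_sum (b m) _ _ fun j => t m j j, ← Grp.fld_sum (b m) _ _ fun n => t n m n,
      sub_eq_add_neg, ← neg_one_smul ℂ (c.Vl 0 m _ v)]
    exact c.Q.lin _ _ _ _ v (b m) (Ap.sw_sum fun j _ => Ap.sw_cmul _ (t _ _ _))
      (Ap.sw_sum fun j _ => Ap.sw_cmul _ (t _ _ _))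
  have d : ∀ m, ∑ n, (bas m (eta m) n / 3 : ℂ) • ∑ k, c.Vl 0 k (pd k (F m n)) v =
      (eta m / 3 : ℂ) • ∑ k, c.Vl 0 k (pd k (F m m)) v := fun m => by
    rw [Finset.sum_eq_single m (fun n _ h => by simp [bas, h]) (by simp)]
    simp [bas]
  simp only [Ctx.Tf, c.hC.rel 0 _ _ _ v (hF _ _), improveJ, Finset.sum_add_distrib,
    Finset.sum_sub_distrib, d, e]
  simp only [Finset.sum_sub_distrib, smul_sub, Finset.smul_sum, smul_smul]
  rw [Finset.sum_comm (f := fun m j => (1 / 3 * (eta j : ℂ)) • _)]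
  simp only [one_div_mul_eq_div]
  abel

/-- symmetric tensors do not see antisymmetric test functions -/
lemma Tf_symm [Fact c.chg] {F G : Ix → Ix → Fn} (hF : TT F) (hG : TT G)
    (h : ∀ m n x, F m n x + F n m x = G m n x + G n m x) (v : D) : c.Tf F v = c.Tf G v := by
  have e : ∀ {F : Ix → Ix → Fn}, TT F →
      c.Tf (fun m n x => F m n x + 1 * F n m x) v = (2 : ℂ) • c.Tf F v := fun {F} hF => by
    rw [Tf_lin c hF fun m n => hF n m, one_smul, two_smul, Ctx.Tf.eq_1 c fun m n => F n m,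
      Finset.sum_comm]
    simp only [Ctx.Tf, fun m n => c.hP.symm m n _ v (hF n m)]
  have := e hF
  simp only [one_mul, h] at this
  exact smul_right_injective D two_ne_zero (this.symm.trans (by simpa only [one_mul] using e hG))

/-- the densities `dZ` carry the charge of `X` -/
def CHZ (X : V → V) (Z : Ix → Ix → Ix → V → ℝ) : Prop := ∀ (K : Set V) χ Ξ (B : Fld D) f v w,
  IsCompact K → Chg K χ Ξ → c.Q.fld B → GF.IsTest f → tsupport f ⊆ K →
  inner ℂ w (c.Tf (dZ χ Ξ Z) (B f v) - B f (c.Tf (dZ χ Ξ Z) v)) =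
    inner ℂ w (c.A X (B f v) - B f (c.A X v))

theorem chz [Fact c.can] (hX : IsSim 0 X) (hZ : Imp X Z) : CHZ c X Z := by
  intro K χ Ξ B f v w hK h hB hf hs
  have t := tt_dZ hZ h.1 h.2.1
  have t' : TT (dens χ Ξ X) := fun m n =>
    Ap.tst_sw (Chx.tst_uX hX (Ap.cs_mul_r h.1 (Ap.smooth_dr h.2.1 m)) n)
  have s : ∀ v, (c.toS 0).Tf (dZ χ Ξ Z) v = (c.toS 0).Tf (dens χ Ξ X) v :=
    Tf_symm _ t t' fun m n x => by
      simp only [dZ, dens, ← Complex.ofReal_add, ← mul_add, hZ.sym, mul_assoc]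
  have l : ∀ m, c.Vl 0 m (vF (dZ χ Ξ Z) m) (B f v) = B f (c.Vl 0 m (vF (dZ χ Ξ Z) m) v) :=
    fun m => c.Q.loc _ _ _ _ v ((c.hC.fam.p1l 0).bose m) hB (test_vF t m) hf fun x hx y hy =>
      by_contra fun k => notMem_tsupport_iff_eventuallyEq.2
        (vF_dZ hZ h m ⟨y, hs hy, not_lt.1 k⟩) hx
  obtain ⟨B', -, a⟩ := c.Q.adj B hB
  have a' : Adj (B f) (B' (bar f)) := fun v w => a f v w hf
  rw [← ch_row (c.toS 0) trivial K χ Ξ X B f v w hK h hX hB hf hs, rel c t, rel c t, s, s,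
    Chx.fld_vadd hB hf, Finset.smul_sum, Finset.smul_sum, adj_sum a']
  simp only [l, add_sub_add_right_eq_sub]

lemma dr_aff {f : V → ℝ} {r : Ix} {x : V} {a : ℝ} (h : ∀ t, f (x + bas r t) = f x + t * a) :
    dr r f x = a := by
  simp only [dr, h]
  simpa using (((hasDerivAt_id (0 : ℝ)).mul_const a).const_add (f x)).deriv

/-- the density of a translation -/
def ZP (y : V) : Ix → Ix → Ix → V → ℝ := fun k m n _ => if k = m then eta n * y n else 0

theorem imp_P (y : V) : Imp (fun _ => y) (ZP y) where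
  sm k m n := contDiff_const
  div k m x := by
    simp only [show ∀ r k m n, dr r (ZP y k m n) x = 0 from fun r k m n => Chx.dr_const _ _ _,
      mul_zero]
  alt H hH m x := by simp [ZP, hH m]
  sym u m n x := by simp [ZP]

lemma hZ_P (h y : V) (g : Fn) : hZ h (ZP y) g = hk h y g := by
  funext m n x
  simp [hZ, hk, ZP]

/-- `u ∧ v` -/
def wg (u v : V) (m n : Ix) : ℝ := eta m * u m * (eta n * v n) - eta m * v m * (eta n * u n)

/-- the density of a null rotation -/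
def ZM (i : Fin 2) : Ix → Ix → Ix → V → ℝ := fun k m n x =>
  (if k = m then eta n * P352X.Pw.XM i x n else 0) - ∑ j, tx x j *
    (va k * wg (ex i) (ex j) m n + ex i k * wg (ex j) va m n + ex j k * wg va (ex i) m n)

lemma dr_ZM (i : Fin 2) (r k m n : Ix) (x : V) : dr r (ZM i k m n) x = ZM i k m n (bas r 1) :=
  dr_aff fun t => by
    simp only [ZM, P352X.Pw.XM, Ap.bas_smul r t, tx_add, be_add, tx_smul, be_smul, Pi.add_apply,
      Pi.smul_apply, smul_eq_mul, Fin.sum_univ_two]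
    split_ifs <;> ring

theorem imp_M (i : Fin 2) : Imp (P352X.Pw.XM i) (ZM i) where
  sm k m n := by
    unfold ZM
    split_ifs <;> fun_prop
  div k m x := by
    simp only [dr_ZM]
    fin_cases i <;> fin_cases k <;> fin_cases m <;>
      simp [ZM, wg, tx, be_eq, bas, va, ex, tv, pt, e2, eta, o, Fin.sum_univ_four]
  alt H hH m x := by
    fin_cases i <;> fin_cases m <;>
      simp [ZM, wg, tx, be_eq, va, ex, tv, pt, e2, eta, o, Fin.sum_univ_four, hH 1 0, hH 2 0,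
        hH 3 0, hH 2 1, hH 3 1, hH 3 2] <;> ring
  sym u m n x := by
    simp only [ZM, mul_sub, Finset.sum_sub_distrib, mul_ite, mul_zero, Finset.sum_ite_eq',
      Finset.mem_univ, if_true, wg, Fin.sum_univ_two, Fin.sum_univ_four]
    ring

lemma hZ_Ma (i : Fin 2) (g : Fn) : hZ va (ZM i) g = hX va (P352X.Pw.XM i) g := by
  funext m n x
  unfold hZ hX
  congr 2
  simp only [ZM, mul_sub, Finset.sum_sub_distrib, mul_ite, mul_zero, Finset.sum_ite_eq',
    Finset.mem_univ, if_true]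
  fin_cases i <;> simp [va, ex, tv, pt, e2, eta, o, Fin.sum_univ_four]

lemma hZ_Mb (i : Fin 2) (g : Fn) : hZ vb (ZM i) g = fun m n x => hX vb (P352X.Pw.XM i) g m n x +
    -1 * ∑ j, (hk (ex i) (ex j) (fun z => (tx z j : ℝ) * g z) m n x +
      -1 * hk (ex j) (ex i) (fun z => (tx z j : ℝ) * g z) m n x) := by
  funext m n x
  have : ∑ k, eta k * vb k * ZM i k m n x = eta m * vb m * (eta n * P352X.Pw.XM i x n) -
      ∑ j, tx x j * wg (ex i) (ex j) m n := by
    simp only [ZM, mul_sub, Finset.sum_sub_distrib, mul_ite, mul_zero, Finset.sum_ite_eq',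
      Finset.mem_univ, if_true]
    fin_cases i <;> simp [va, vb, ex, tv, pt, e2, eta, o, Fin.sum_univ_four] <;> ring
  simp only [hZ, hX, hk, this, wg, Fin.sum_univ_two]
  push_cast
  ring

end Pw

end

end Vale.Agent.P352X.ZZ
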